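import Vale.Agent.P269.G1I.ZSpec

/-!
# [ZB0] functions of `μ` and the classical multiplication by `c_1`
-/

namespace Vale.Agent.P269.G1.H905

open Finset.HasAntidiagonal (antidiagonal)
open Vale.Agent.P269.CI Vale.Agent.P269.G1

variable {X : CompleteIntersection} {F : ℕ → ℕ → List (Ins X) → ℂ}

/-! ### The coefficients `esym` -/

theorem esym_zero_zero (x : ℂ) : esym 0 0 x = 1 := by
  simp [esym]

theorem esym_zero_succ (i : ℕ) (x : ℂ) : esym 0 (i + 1) x = 0 := by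
  unfold esym
  rw [Finset.prod_range_zero, Polynomial.coeff_one, if_neg (by omega)]

theorem esym_succ_zero (K : ℕ) (x : ℂ) : esym (K + 1) 0 x = (x + K) * esym K 0 x := by
  unfold esym
  rw [Finset.prod_range_succ, mul_comm, add_mul, Polynomial.coeff_add, Polynomial.coeff_C_mul,
    Polynomial.coeff_X_mul_zero, zero_add]

theorem esym_succ_succ (K i : ℕ) (x : ℂ) :
    esym (K + 1) (i + 1) x = esym K i x + (x + K) * esym K (i + 1) x := by
  unfold esym
  rw [Finset.prod_range_succ, mul_comm, add_mul, Polynomial.coeff_add, Polynomial.coeff_C_mul,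
    Polynomial.coeff_X_mul]

/-! ### Constants -/

/-- constants as a ring homomorphism -/
noncomputable def cstHom (X : CompleteIntersection) : ℂ →+* RR X :=
  (MvPowerSeries.C (σ := Fin (X.dim + 1)) (R := PowerSeries ℂ)).comp (PowerSeries.C (R := ℂ))

theorem cst_eq (c : ℂ) : cst X c = cstHom X c := rfl

theorem cst_add (a b : ℂ) : cst X (a + b) = cst X a + cst X b := by
  simp only [cst_eq, map_add]

theorem cst_sub (a b : ℂ) : cst X (a - b) = cst X a - cst X b := by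
  simp only [cst_eq, map_sub]

theorem cst_mul (a b : ℂ) : cst X (a * b) = cst X a * cst X b := by
  simp only [cst_eq, map_mul]

theorem cst_one : cst X 1 = 1 := by
  rw [cst_eq, map_one]

theorem cst_zero : cst X 0 = 0 := by
  rw [cst_eq, map_zero]

theorem cst_natCast (n : ℕ) : cst X (n : ℂ) = (n : RR X) := by
  rw [cst_eq, map_natCast]

theorem cst_rat (q : ℚ) : cst X (q : ℂ) = algebraMap ℚ (RR X) q := by
  have h : (cstHom X).comp (algebraMap ℚ ℂ) = algebraMap ℚ (RR X) := RingHom.ext_rat _ _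
  have h2 := RingHom.congr_fun h q
  rw [← h2]
  rfl

variable (hF : IsGW X F) (h1 : IsGenusOne F)

/-! ### The operators -/

theorem fmu_fst (g : ℂ → ℂ) (x : AA hF h1) (k : Fin (X.dim + 1)) :
    ((fmu hF h1 g).1 x : AA hF h1) k = x k * cst X (g (mu X (Sum.inl k))) := by
  change ∑ i, x i * (if i = k then cst X (g (mu X (Sum.inl i))) else 0) = _
  rw [Finset.sum_eq_single k]
  · rw [if_pos rfl]
  · intro i _ hi
    rw [if_neg hi, mul_zero]
  · intro h
    exact absurd (Finset.mem_univ k) h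

theorem fmu_snd (g : ℂ → ℂ) (v : X.Prim) :
    (fmu hF h1 g).2 v = cst X (g (mu X (Sum.inr v))) := rfl

/-- Equality of operators. -/
theorem OO_ext {a b : OO hF h1} (h : ∀ (x : AA hF h1) k, (a.1 x : AA hF h1) k = (b.1 x : AA hF h1) k)
    (h' : ∀ v, a.2 v = b.2 v) : a = b :=
  Prod.ext (LinearMap.ext fun x => funext fun k => h x k) (funext h')

theorem fmu_one : fmu hF h1 (fun _ => 1) = 1 := by
  refine OO_ext hF h1 (fun x k => ?_) fun v => ?_
  · rw [fmu_fst, cst_one, mul_one]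
    rfl
  · rw [fmu_snd, cst_one]
    rfl

theorem fmu_zero : fmu hF h1 (fun _ => 0) = 0 := by
  refine OO_ext hF h1 (fun x k => ?_) fun v => ?_
  · rw [fmu_fst, cst_zero, mul_zero]
    rfl
  · rw [fmu_snd, cst_zero]
    rfl

theorem fmu_add (f g : ℂ → ℂ) :
    fmu hF h1 (fun x => f x + g x) = fmu hF h1 f + fmu hF h1 g := by
  refine OO_ext hF h1 (fun x k => ?_) fun v => ?_
  · rw [fmu_fst, cst_add, mul_add, ← fmu_fst, ← fmu_fst]
    rfl
  · rw [fmu_snd, cst_add]
    rfl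

theorem fmu_mul (f g : ℂ → ℂ) :
    fmu hF h1 (fun x => f x * g x) = fmu hF h1 f * fmu hF h1 g := by
  refine OO_ext hF h1 (fun x k => ?_) fun v => ?_
  · have h : ((fmu hF h1 f * fmu hF h1 g).1 x : AA hF h1) k =
        ((fmu hF h1 f).1 ((fmu hF h1 g).1 x) : AA hF h1) k := rfl
    rw [h, fmu_fst, fmu_fst, fmu_fst, cst_mul]
    ring
  · rw [fmu_snd, cst_mul]
    rfl

theorem kk_fst (q : ℚ) (x : AA hF h1) (k : Fin (X.dim + 1)) :
    ((kk (RR X) q : OO hF h1).1 x : AA hF h1) k = cst X (q : ℂ) * x k := by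
  rw [cst_rat]
  rfl

theorem kk_snd (q : ℚ) (v : X.Prim) : (kk (RR X) q : OO hF h1).2 v = cst X (q : ℂ) := by
  rw [cst_rat]
  rfl

theorem muO_fst (x : AA hF h1) (k : Fin (X.dim + 1)) :
    ((muO hF h1).1 x : AA hF h1) k = x k * cst X (mu X (Sum.inl k)) := by
  have h : ((muO hF h1).1 x : AA hF h1) k =
      ((k : ℕ) : RR X) * x k - cst X ((X.dim : ℂ) / 2) * x k := rfl
  have h2 : mu X (Sum.inl k) = ((k : ℕ) : ℂ) - (X.dim : ℂ) / 2 := rfl
  rw [h, h2, cst_sub, cst_natCast]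
  ring

theorem muO_snd (v : X.Prim) : (muO hF h1).2 v = cst X (mu X (Sum.inr v)) := rfl

theorem muO_add_kk (q : ℚ) :
    muO hF h1 + kk (RR X) q = fmu hF h1 (fun x => x + (q : ℂ)) := by
  refine OO_ext hF h1 (fun x k => ?_) fun v => ?_
  · have h : ((muO hF h1 + kk (RR X) q : OO hF h1).1 x : AA hF h1) k =
        ((muO hF h1).1 x : AA hF h1) k + ((kk (RR X) q : OO hF h1).1 x : AA hF h1) k := rfl
    rw [h, fmu_fst, muO_fst, kk_fst, cst_add]
    ring
  · have h : (muO hF h1 + kk (RR X) q : OO hF h1).2 v =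
        (muO hF h1).2 v + (kk (RR X) q : OO hF h1).2 v := rfl
    rw [h, fmu_snd, muO_snd, kk_snd, cst_add]

theorem Rcl_fst (x : AA hF h1) (k : Fin (X.dim + 1)) :
    ((Rcl hF h1).1 x : AA hF h1) k = ∑ i, x i * cst X (c1 X (Sum.inl i) (Sum.inl k)) := rfl

theorem c1_eq_zero (i k : Fin (X.dim + 1)) (h : (k : ℕ) ≠ i + 1) :
    c1 X (Sum.inl i) (Sum.inl k) = 0 := by
  have h2 : c1 X (Sum.inl i) (Sum.inl k) =
      index X * (if (k : ℕ) = i + 1 then (1 : ℂ) else 0) := rfl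
  rw [h2, if_neg h, mul_zero]

theorem mu_Rcl : muO hF h1 * Rcl hF h1 = Rcl hF h1 * muO hF h1 + Rcl hF h1 := by
  refine OO_ext hF h1 (fun x k => ?_) fun v => ?_
  · have e1 : ((muO hF h1 * Rcl hF h1).1 x : AA hF h1) k =
        ((muO hF h1).1 ((Rcl hF h1).1 x) : AA hF h1) k := rfl
    have e2 : ((Rcl hF h1 * muO hF h1 + Rcl hF h1).1 x : AA hF h1) k =
        ((Rcl hF h1).1 ((muO hF h1).1 x) : AA hF h1) k + ((Rcl hF h1).1 x : AA hF h1) k := rfl
    rw [e1, e2, muO_fst, Rcl_fst, Rcl_fst, ← Finset.sum_add_distrib, Finset.sum_mul]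
    refine Finset.sum_congr rfl fun i _ => ?_
    rw [muO_fst]
    by_cases h : (k : ℕ) = i + 1
    · have h2 : mu X (Sum.inl k) = mu X (Sum.inl i) + 1 := by
        change ((k : ℕ) : ℂ) - (X.dim : ℂ) / 2 = ((i : ℕ) : ℂ) - (X.dim : ℂ) / 2 + 1
        rw [h]
        push_cast
        ring
      rw [h2, cst_add, cst_one]
      ring
    · rw [c1_eq_zero i k h, cst_zero]
      ring
  · have e1 : (muO hF h1 * Rcl hF h1).2 v = (muO hF h1).2 v * 0 := rfl
    have e2 : (Rcl hF h1 * muO hF h1 + Rcl hF h1).2 v = 0 * (muO hF h1).2 v + 0 := rfl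
    rw [e1, e2]
    ring

theorem ee_zero_zero (m : ℤ) : ee hF h1 m 0 0 = 1 := by
  unfold ee
  rw [← fmu_one hF h1]
  congr 1
  funext x
  exact esym_zero_zero _

theorem ee_zero_succ (m : ℤ) (i : ℕ) : ee hF h1 m 0 (i + 1) = 0 := by
  unfold ee
  rw [← fmu_zero hF h1]
  congr 1
  funext x
  exact esym_zero_succ _ _

theorem ee_succ_zero (m : ℤ) (K : ℕ) : ee hF h1 m (K + 1) 0 =
    (muO hF h1 + kk (RR X) ((m : ℚ) + 1 / 2 + K)) * ee hF h1 m K 0 := by
  unfold ee
  rw [muO_add_kk, ← fmu_mul]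
  congr 1
  funext x
  rw [esym_succ_zero]
  push_cast
  ring

theorem ee_succ_succ (m : ℤ) (K i : ℕ) : ee hF h1 m (K + 1) (i + 1) = ee hF h1 m K i +
    (muO hF h1 + kk (RR X) ((m : ℚ) + 1 / 2 + K)) * ee hF h1 m K (i + 1) := by
  unfold ee
  rw [muO_add_kk, ← fmu_mul, ← fmu_add]
  congr 1
  funext x
  rw [esym_succ_succ]
  push_cast
  ring

end Vale.Agent.P269.G1.H905
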